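import Mathlib.Analysis.InnerProductSpace.PiL2
import Mathlib.Analysis.InnerProductSpace.Calculus
import Mathlib.Analysis.Calculus.InverseFunctionTheorem.FDeriv
import Mathlib.Analysis.Calculus.Deriv.MeanValue
import Mathlib.Analysis.SpecialFunctions.Sqrt
import Mathlib.Analysis.Calculus.Deriv.Inv
import Mathlib.Analysis.Calculus.Deriv.Pow
import Mathlib.MeasureTheory.Constructions.BorelSpace.Basic

/-!
One branch of the contact set: for a unit vector `e`, every small `a` gets a pair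
`(φ a, ψ a)` near `(e, -e)` which is a strict local minimiser of the reduced cost.
-/

open scoped RealInnerProductSpace Topology
open Filter Set Metric

noncomputable section

namespace Vale.Agent.P121

abbrev E3 := EuclideanSpace ℝ (Fin 3)

/-- Gradient of `z ↦ 1/|z|`. -/
def grad (z : E3) : E3 := (-((‖z‖ ^ 3)⁻¹)) • z

/-- The linear map `h ↦ 3⟪e,h⟫e - h`. -/
def hess (e : E3) : E3 →L[ℝ] E3 :=
  (3 : ℝ) • (innerSL ℝ e).smulRight e - ContinuousLinearMap.id ℝ E3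

theorem hess_apply (e h : E3) : hess e h = (3 * ⟪e, h⟫) • e - h := by
  simp [hess, smul_smul]

theorem hasStrictFDerivAt_grad {z : E3} (hz : z ≠ 0) :
    HasStrictFDerivAt grad
      ((-((‖z‖ ^ 3)⁻¹)) • ContinuousLinearMap.id ℝ E3
        + (3 / ‖z‖ ^ 5) • (innerSL ℝ z).smulRight z) z := by
  have hn : (0 : ℝ) < ‖z‖ := norm_pos_iff.mpr hz
  have hsq : ‖z‖ ^ 2 ≠ 0 := by positivity
  have h1 := (hasStrictFDerivAt_norm_sq z).sqrt hsq
  have h2 : HasStrictFDerivAt (fun x : E3 => ‖x‖) ((‖z‖⁻¹) • innerSL ℝ z) z := by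
    have h1' := h1
    simp only [Real.sqrt_sq (norm_nonneg _)] at h1'
    refine h1'.congr_fderiv ?_
    ext h
    simp
    field_simp
  have h3 : HasStrictDerivAt (fun t : ℝ => -((t ^ 3)⁻¹)) (3 / ‖z‖ ^ 4) ‖z‖ := by
    have := (HasStrictDerivAt.comp (h := fun t : ℝ => t ^ 3) ‖z‖
      (hasStrictDerivAt_inv (show ‖z‖ ^ 3 ≠ 0 by positivity))
      (hasStrictDerivAt_pow 3 ‖z‖)).neg
    refine this.congr_deriv ?_
    norm_num
    field_simp
  have h4 := h3.comp_hasStrictFDerivAt z h2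
  have h5 := h4.smul (hasStrictFDerivAt_id z)
  refine h5.congr_fderiv ?_
  ext h
  simp [Function.comp_def]
  field_simp

theorem hasStrictFDerivAt_grad_unit {e : E3} (he : ‖e‖ = 1) (σ : ℝ) (hσ : σ = 1 ∨ σ = -1) :
    HasStrictFDerivAt grad (hess e) (σ • e) := by
  have hz : σ • e ≠ 0 := by
    rw [← norm_pos_iff, norm_smul, he]
    rcases hσ with rfl | rfl <;> norm_num
  refine (hasStrictFDerivAt_grad hz).congr_fderiv ?_
  ext h
  rcases hσ with rfl | rfl <;> simp [hess_apply, he, norm_smul] <;> ring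

theorem hasStrictFDerivAt_grad_two {e : E3} (he : ‖e‖ = 1) :
    HasStrictFDerivAt grad ((1 / 8 : ℝ) • hess e) ((-2 : ℝ) • e) := by
  have hz : (-2 : ℝ) • e ≠ 0 := by
    rw [← norm_pos_iff, norm_smul, he]
    norm_num
  refine (hasStrictFDerivAt_grad hz).congr_fderiv ?_
  ext h
  simp [hess_apply, he, norm_smul, inner_smul_left]
  ring

theorem hasDerivAt_inv_norm {p q : E3} {t : ℝ} (h : p + t • q ≠ 0) :
    HasDerivAt (fun s : ℝ => ‖p + s • q‖⁻¹) ⟪grad (p + t • q), q⟫ t := by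
  have hn : (0 : ℝ) < ‖p + t • q‖ := norm_pos_iff.mpr h
  have h0 : HasDerivAt (fun s : ℝ => p + s • q) q t := by
    simpa using ((hasDerivAt_id t).smul_const q).const_add p
  have hsq : ‖p + t • q‖ ^ 2 ≠ 0 := by positivity
  have h1 := h0.norm_sq.sqrt hsq
  simp only [Real.sqrt_sq (norm_nonneg _)] at h1
  refine (HasDerivAt.fun_inv h1 hn.ne').congr_deriv ?_
  rw [grad, real_inner_smul_left]
  field_simp

abbrev T3 := E3 × E3 × E3

def G1 (p : T3) : E3 := grad (p.1 - p.2.1) + grad (p.1 - p.2.2) + (4 : ℝ) • p.1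

def G2 (e : E3) (p : T3) : E3 :=
  grad (p.2.2 - p.1) + grad (p.2.2 - p.2.1) + (4 : ℝ) • (p.2.2 + e) - (5 / 4 : ℝ) • e

def statMap (e : E3) (p : T3) : T3 := (p.1, G1 p, G2 e p)

/-- Reduced cost. -/
def redCost (e : E3) (p : T3) : ℝ :=
  ‖p.1 - p.2.1‖⁻¹ + ‖p.1 - p.2.2‖⁻¹ + ‖p.2.1 - p.2.2‖⁻¹
    + 2 * ‖p.1‖ ^ 2 + 2 * ‖p.2.2 + e‖ ^ 2 - 5 / 4 * ⟪e, p.2.2⟫

def p1 : T3 →L[ℝ] E3 := ContinuousLinearMap.fst ℝ E3 (E3 × E3)
def p2 : T3 →L[ℝ] E3 :=
  (ContinuousLinearMap.fst ℝ E3 E3).comp (ContinuousLinearMap.snd ℝ E3 (E3 × E3))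
def p3 : T3 →L[ℝ] E3 :=
  (ContinuousLinearMap.snd ℝ E3 E3).comp (ContinuousLinearMap.snd ℝ E3 (E3 × E3))

def statDeriv (e : E3) : T3 →L[ℝ] T3 :=
  p1.prod ((((hess e).comp (p1 - p2) + (hess e).comp (p1 - p3)) + (4 : ℝ) • p1).prod
    (((hess e).comp (p3 - p1) + ((1 / 8 : ℝ) • hess e).comp (p3 - p2)) + (4 : ℝ) • p3))

theorem statDeriv_apply (e : E3) (v : T3) :
    statDeriv e v = (v.1,
      hess e (v.1 - v.2.1) + hess e (v.1 - v.2.2) + (4 : ℝ) • v.1,
      hess e (v.2.2 - v.1) + (1 / 8 : ℝ) • hess e (v.2.2 - v.2.1) + (4 : ℝ) • v.2.2) := by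
  simp [statDeriv, p1, p2, p3, smul_sub]

theorem statMap_base {e : E3} (he : ‖e‖ = 1) : statMap e (0, e, -e) = (0, 0, 0) := by
  have h2 : (-e - e : E3) = (-2 : ℝ) • e := by module
  simp [statMap, G1, G2, grad, h2, norm_smul, he, smul_smul]
  module

theorem hasStrictFDerivAt_statMap {e : E3} (he : ‖e‖ = 1) :
    HasStrictFDerivAt (statMap e) (statDeriv e) (0, e, -e) := by
  have a : HasStrictFDerivAt (fun p : T3 => p.1) p1 (0, e, -e) := p1.hasStrictFDerivAt
  have b : HasStrictFDerivAt (fun p : T3 => p.2.1) p2 (0, e, -e) := p2.hasStrictFDerivAt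
  have k : HasStrictFDerivAt (fun p : T3 => p.2.2) p3 (0, e, -e) := p3.hasStrictFDerivAt
  have gm := hasStrictFDerivAt_grad_unit he (-1) (Or.inr rfl)
  have gp := hasStrictFDerivAt_grad_unit he 1 (Or.inl rfl)
  have g2 := hasStrictFDerivAt_grad_two he
  have hab : HasStrictFDerivAt (fun p : T3 => grad (p.1 - p.2.1)) ((hess e).comp (p1 - p2))
      (0, e, -e) :=
    HasStrictFDerivAt.comp (0, e, -e) (by simpa using gm) (a.sub b)
  have hak : HasStrictFDerivAt (fun p : T3 => grad (p.1 - p.2.2)) ((hess e).comp (p1 - p3))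
      (0, e, -e) :=
    HasStrictFDerivAt.comp (0, e, -e) (by simpa using gp) (a.sub k)
  have hka : HasStrictFDerivAt (fun p : T3 => grad (p.2.2 - p.1)) ((hess e).comp (p3 - p1))
      (0, e, -e) :=
    HasStrictFDerivAt.comp (0, e, -e) (by simpa using gm) (k.sub a)
  have hkb : HasStrictFDerivAt (fun p : T3 => grad (p.2.2 - p.2.1))
      (((1 / 8 : ℝ) • hess e).comp (p3 - p2)) (0, e, -e) := by
    refine HasStrictFDerivAt.comp (0, e, -e) ?_ (k.sub b)
    have h2 : (-e - e : E3) = (-2 : ℝ) • e := by module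
    simpa [h2] using g2
  exact a.prodMk (((hab.add hak).add (a.const_smul (4 : ℝ))).prodMk
    (((hka.add hkb).add ((k.add_const e).const_smul (4 : ℝ))).sub_const ((5 / 4 : ℝ) • e)))

theorem coercive {e : E3} (he : ‖e‖ = 1) (x y : E3) :
    ‖x‖ ^ 2 + ‖y‖ ^ 2 ≤
      ⟪(statDeriv e (x, 0, y)).2.1, x⟫ + ⟪(statDeriv e (x, 0, y)).2.2, y⟫ := by
  rw [statDeriv_apply]
  simp only [hess_apply, sub_zero, inner_add_left, inner_sub_left, real_inner_smul_left,
    inner_sub_right]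
  have h1 := sq_nonneg (⟪e, x⟫ - ⟪e, y⟫ / 2)
  have h2 := sq_nonneg ⟪e, y⟫
  have h3 : 0 ≤ ⟪x + y, x + y⟫ := real_inner_self_nonneg
  have h4 := sq_nonneg ‖y‖
  simp only [inner_add_left, inner_add_right, real_inner_self_eq_norm_sq,
    real_inner_comm x y] at *
  nlinarith

theorem hess_eq_smul {e u : E3} (he : ‖e‖ = 1) {c : ℝ} (h : hess e u = c • u)
    (hc2 : c ≠ 2) (hc1 : c ≠ -1) : u = 0 := by
  rw [hess_apply] at h
  have h' := congrArg (fun v => ⟪e, v⟫) h
  simp [inner_sub_right, real_inner_smul_right, he] at h'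
  have hs : ⟪e, u⟫ = 0 := by
    have : (2 - c) * ⟪e, u⟫ = 0 := by linarith
    rcases mul_eq_zero.mp this with h0 | h0
    · exact absurd (by linarith) hc2
    · exact h0
  rw [hs] at h
  simp at h
  have : (c + 1) • u = 0 := by rw [add_smul, one_smul, ← h]; simp
  rcases smul_eq_zero.mp this with h0 | h0
  · exact absurd (by linarith) hc1
  · exact h0

theorem statDeriv_injective {e : E3} (he : ‖e‖ = 1) :
    Function.Injective (statDeriv e).toLinearMap := by
  rw [injective_iff_map_eq_zero]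
  intro v hv
  have hv' : statDeriv e v = 0 := hv
  rw [statDeriv_apply] at hv'
  simp only [Prod.ext_iff, Prod.fst_zero, Prod.snd_zero] at hv'
  obtain ⟨ha, h1, h2⟩ := hv'
  rw [ha] at h1 h2
  have hsum : v.2.1 + v.2.2 = 0 := by
    refine hess_eq_smul he (c := 0) ?_ (by norm_num) (by norm_num)
    simp only [zero_sub, map_neg, smul_zero, add_zero] at h1
    rw [map_add, zero_smul]
    linear_combination (norm := module) -h1
  have hb : v.2.1 = -v.2.2 := eq_neg_of_add_eq_zero_left hsum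
  have hk : v.2.2 = 0 := by
    refine hess_eq_smul he (c := -(16 / 5)) ?_ (by norm_num) (by norm_num)
    rw [hb] at h2
    simp only [sub_zero, sub_neg_eq_add, map_add] at h2
    linear_combination (norm := module) (4 / 5 : ℝ) • h2
  rw [hk, neg_zero] at hb
  exact Prod.ext ha (Prod.ext hb hk)

def statEquiv {e : E3} (he : ‖e‖ = 1) : T3 ≃L[ℝ] T3 :=
  (LinearEquiv.ofInjectiveEndo _ (statDeriv_injective he)).toContinuousLinearEquiv

theorem statEquiv_coe {e : E3} (he : ‖e‖ = 1) :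
    (statEquiv he : T3 →L[ℝ] T3) = statDeriv e := by
  ext v <;> simp [statEquiv]

theorem bilip_of_strict {f : E3 → E3} {f' : E3 →L[ℝ] E3} (hf : HasStrictFDerivAt f f' 0)
    (hinj : ∀ h, f' h = 0 → h = 0) :
    ∃ δ > 0, ∃ m > 0, ∀ x ∈ ball (0 : E3) δ, ∀ y ∈ ball (0 : E3) δ,
      m * ‖x - y‖ ≤ ‖f x - f y‖ := by
  have hker : LinearMap.ker f'.toLinearMap = ⊥ := LinearMap.ker_eq_bot'.mpr hinj
  obtain ⟨K, hK, hKf⟩ := LinearMap.exists_antilipschitzWith _ hker
  have hK' : (0 : ℝ) < K := hK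
  have hev := hf.isLittleO.def (show (0 : ℝ) < 1 / (2 * K) by positivity)
  obtain ⟨δ, hδ, hball⟩ := Metric.eventually_nhds_iff.mp hev
  refine ⟨δ, hδ, 1 / (2 * K), by positivity, fun x hx y hy => ?_⟩
  have hxy := hball (y := (x, y)) (by
    simpa [Prod.dist_eq] using And.intro (mem_ball.mp hx) (mem_ball.mp hy))
  have h0 : ‖x - y‖ ≤ K * ‖f' (x - y)‖ := by
    simpa [dist_eq_norm] using hKf.le_mul_dist (x - y) 0
  have h1 : ‖f' (x - y)‖ ≤ ‖f x - f y‖ + ‖f x - f y - f' (x - y)‖ := by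
    calc ‖f' (x - y)‖ = ‖(f x - f y) - (f x - f y - f' (x - y))‖ := by
          congr 1; abel
      _ ≤ _ := norm_sub_le _ _
  simp only at hxy
  have h2 : ‖x - y‖ / K ≤ ‖f' (x - y)‖ := by
    rw [div_le_iff₀ hK']; linarith
  have h3 : ‖x - y‖ / K = 2 * (1 / (2 * K) * ‖x - y‖) := by field_simp
  linarith

theorem exists_monotone {e : E3} (he : ‖e‖ = 1) :
    ∃ δ : ℝ, 0 < δ ∧ δ ≤ 1 / 8 ∧ ∀ p ∈ ball ((0, e, -e) : T3) δ,
      ∀ q ∈ ball ((0, e, -e) : T3) δ, p.2.1 = q.2.1 →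
      (‖p.1 - q.1‖ ^ 2 + ‖p.2.2 - q.2.2‖ ^ 2) / 2 ≤
        ⟪G1 p - G1 q, p.1 - q.1⟫ + ⟪G2 e p - G2 e q, p.2.2 - q.2.2⟫ := by
  have hev := (hasStrictFDerivAt_statMap he).isLittleO.def (show (0 : ℝ) < 1 / 4 by norm_num)
  obtain ⟨δ, hδ, hball⟩ := Metric.eventually_nhds_iff.mp hev
  refine ⟨min δ (1 / 8), lt_min hδ (by norm_num), min_le_right _ _, fun p hp q hq hb => ?_⟩
  have hpq := hball (y := (p, q)) (by
    rw [Prod.dist_eq]
    exact max_lt (lt_of_lt_of_le (mem_ball.mp hp) (min_le_left _ _))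
      (lt_of_lt_of_le (mem_ball.mp hq) (min_le_left _ _)))
  simp only at hpq
  set x := p.1 - q.1 with hx
  set y := p.2.2 - q.2.2 with hy
  have hd : p - q = (x, 0, y) := by
    refine Prod.ext rfl (Prod.ext ?_ rfl)
    simp [hb]
  rw [hd] at hpq
  set M := max ‖x‖ ‖y‖ with hM
  have hnd : ‖((x, (0 : E3), y) : T3)‖ = M := by
    simp [Prod.norm_def, hM]
  rw [hnd] at hpq
  set u := (statDeriv e (x, 0, y)).2.1 with hu
  set v := (statDeriv e (x, 0, y)).2.2 with hv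
  have e1 : ‖(G1 p - G1 q) - u‖ ≤ 1 / 4 * M :=
    ((norm_fst_le _).trans (norm_snd_le _)).trans hpq
  have e2 : ‖(G2 e p - G2 e q) - v‖ ≤ 1 / 4 * M :=
    ((norm_snd_le _).trans (norm_snd_le _)).trans hpq
  have c1 := abs_real_inner_le_norm ((G1 p - G1 q) - u) x
  have c2 := abs_real_inner_le_norm ((G2 e p - G2 e q) - v) y
  have f1 : |⟪(G1 p - G1 q) - u, x⟫| ≤ 1 / 4 * M * M :=
    c1.trans (mul_le_mul e1 (le_max_left _ _) (norm_nonneg _) (by positivity))
  have f2 : |⟪(G2 e p - G2 e q) - v, y⟫| ≤ 1 / 4 * M * M :=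
    c2.trans (mul_le_mul e2 (le_max_right _ _) (norm_nonneg _) (by positivity))
  have hco := coercive he x y
  rw [← hu, ← hv] at hco
  rw [inner_sub_left] at f1 f2
  have hMM : M * M ≤ ‖x‖ ^ 2 + ‖y‖ ^ 2 := by
    rcases max_choice ‖x‖ ‖y‖ with h | h <;> rw [hM, h] <;> nlinarith [sq_nonneg ‖x‖, sq_nonneg ‖y‖]
  have g1 := neg_abs_le (⟪G1 p - G1 q, x⟫ - ⟪u, x⟫)
  have g2 := neg_abs_le (⟪G2 e p - G2 e q, y⟫ - ⟪v, y⟫)
  linarith

theorem norm_pos_of_mem {e : E3} (he : ‖e‖ = 1) {δ : ℝ} (hδ : δ ≤ 1 / 8) {p : T3}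
    (hp : p ∈ ball ((0, e, -e) : T3) δ) :
    p.1 - p.2.1 ≠ 0 ∧ p.1 - p.2.2 ≠ 0 ∧ p.2.1 - p.2.2 ≠ 0 := by
  rw [mem_ball, Prod.dist_eq, Prod.dist_eq, max_lt_iff, max_lt_iff] at hp
  simp only [dist_eq_norm] at hp
  obtain ⟨ha, hb, hk⟩ := hp
  simp only [sub_zero] at ha
  refine ⟨fun h => ?_, fun h => ?_, fun h => ?_⟩ <;> rw [sub_eq_zero] at h
  · have : ‖e‖ ≤ ‖p.1‖ + ‖p.2.1 - e‖ := by
      calc ‖e‖ = ‖p.1 - (p.2.1 - e)‖ := by rw [h]; congr 1; abel
        _ ≤ _ := norm_sub_le _ _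
    linarith
  · have : ‖e‖ ≤ ‖p.2.2 - -e‖ + ‖p.1‖ := by
      calc ‖e‖ = ‖(p.2.2 - -e) - p.1‖ := by rw [h]; congr 1; abel
        _ ≤ _ := norm_sub_le _ _
    linarith
  · have : ‖(2 : ℝ) • e‖ ≤ ‖p.2.2 - -e‖ + ‖p.2.1 - e‖ := by
      calc ‖(2 : ℝ) • e‖ = ‖(p.2.2 - -e) - (p.2.1 - e)‖ := by rw [h]; congr 1; module
        _ ≤ _ := norm_sub_le _ _
    rw [norm_smul, he] at this
    norm_num at this
    rw [sub_neg_eq_add] at hk
    linarith

theorem redCost_lt {e : E3} (he : ‖e‖ = 1) {δ : ℝ} (hδ8 : δ ≤ 1 / 8)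
    (hmon : ∀ p ∈ ball ((0, e, -e) : T3) δ, ∀ q ∈ ball ((0, e, -e) : T3) δ, p.2.1 = q.2.1 →
      (‖p.1 - q.1‖ ^ 2 + ‖p.2.2 - q.2.2‖ ^ 2) / 2 ≤
        ⟪G1 p - G1 q, p.1 - q.1⟫ + ⟪G2 e p - G2 e q, p.2.2 - q.2.2⟫)
    {p q : T3} (hp : p ∈ ball ((0, e, -e) : T3) δ) (hq : q ∈ ball ((0, e, -e) : T3) δ)
    (hb : p.2.1 = q.2.1) (h1 : G1 q = 0) (h2 : G2 e q = 0) (hne : p ≠ q) :
    redCost e q < redCost e p := by
  set x := p.1 - q.1 with hx
  set y := p.2.2 - q.2.2 with hy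
  let γ : ℝ → T3 := fun t => (q.1 + t • x, q.2.1, q.2.2 + t • y)
  have hγ : ∀ t ∈ Icc (0 : ℝ) 1, γ t ∈ ball ((0, e, -e) : T3) δ := by
    intro t ht
    have := (convex_ball ((0, e, -e) : T3) δ).add_smul_sub_mem hq hp ht
    convert this using 1
    trace_state
    refine Prod.ext rfl (Prod.ext ?_ rfl)
    simp [γ, hb]
  clear_value x y
  have hder : ∀ t ∈ Icc (0 : ℝ) 1, HasDerivAt (fun s => redCost e (γ s))
      (⟪G1 (γ t), x⟫ + ⟪G2 e (γ t), y⟫) t := by
    intro t ht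
    obtain ⟨n1, n2, n3⟩ := norm_pos_of_mem he hδ8 (hγ t ht)
    simp only [γ] at n1 n2 n3
    have e1 : ∀ s : ℝ, q.1 + s • x - q.2.1 = (q.1 - q.2.1) + s • x := fun s => by abel
    have e2 : ∀ s : ℝ, q.1 + s • x - (q.2.2 + s • y) = (q.1 - q.2.2) + s • (x - y) :=
      fun s => by rw [smul_sub]; abel
    have e3 : ∀ s : ℝ, q.2.1 - (q.2.2 + s • y) = (q.2.1 - q.2.2) + s • (-y) :=
      fun s => by rw [smul_neg]; abel
    rw [e1] at n1; rw [e2] at n2; rw [e3] at n3
    have d1 := hasDerivAt_inv_norm n1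
    have d2 := hasDerivAt_inv_norm n2
    have d3 := hasDerivAt_inv_norm n3
    simp only [← e1] at d1
    simp only [← e2] at d2
    simp only [← e3] at d3
    have da : HasDerivAt (fun s : ℝ => q.1 + s • x) x t := by
      simpa using ((hasDerivAt_id t).smul_const x).const_add q.1
    have dk : HasDerivAt (fun s : ℝ => q.2.2 + s • y) y t := by
      simpa using ((hasDerivAt_id t).smul_const y).const_add q.2.2
    have d4 := (da.norm_sq).const_mul 2
    have d5 := ((dk.add_const e).norm_sq).const_mul 2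
    have d6 := ((hasDerivAt_const t e).inner ℝ dk).const_mul (5 / 4 : ℝ)
    refine (((((d1.add d2).add d3).add d4).add d5).sub d6).congr_deriv ?_
    have hodd : ∀ z : E3, grad (-z) = -grad z := fun z => by simp [grad]
    simp only [G1, G2, γ]
    rw [show q.2.2 + t • y - (q.1 + t • x) = -(q.1 + t • x - (q.2.2 + t • y)) by abel,
      show q.2.2 + t • y - q.2.1 = -(q.2.1 - (q.2.2 + t • y)) by abel, hodd, hodd]
    simp only [inner_add_left, inner_sub_left, inner_neg_left, inner_sub_right, inner_neg_right,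
      real_inner_smul_left, inner_zero_left, add_zero]
    ring
  have hmono : StrictMonoOn (fun s => redCost e (γ s)) (Icc 0 1) := by
    refine strictMonoOn_of_deriv_pos (convex_Icc 0 1)
      (fun t ht => (hder t ht).continuousAt.continuousWithinAt) ?_
    intro t ht
    rw [interior_Icc] at ht
    have ht' : t ∈ Icc (0 : ℝ) 1 := Ioo_subset_Icc_self ht
    rw [(hder t ht').deriv]
    have hm := hmon (γ t) (hγ t ht') q hq rfl
    simp only [γ, add_sub_cancel_left, h1, h2, sub_zero, norm_smul, real_inner_smul_right,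
      Real.norm_eq_abs, abs_of_pos ht.1] at hm ⊢
    have hpos : 0 < ‖x‖ ^ 2 + ‖y‖ ^ 2 := by
      by_contra hle
      have hx0 : ‖x‖ = 0 := by nlinarith [sq_nonneg ‖y‖, norm_nonneg x]
      have hy0 : ‖y‖ = 0 := by nlinarith [sq_nonneg ‖x‖, norm_nonneg y]
      refine hne (Prod.ext ?_ (Prod.ext hb ?_))
      · exact sub_eq_zero.mp (hx ▸ norm_eq_zero.mp hx0)
      · exact sub_eq_zero.mp (hy ▸ norm_eq_zero.mp hy0)
    have := ht.1
    nlinarith [mul_pos this (mul_pos this hpos)]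
  have hlt := hmono (left_mem_Icc.mpr zero_le_one) (right_mem_Icc.mpr zero_le_one) zero_lt_one
  have hp1 : γ 1 = p := Prod.ext (by simp [γ, hx]) (Prod.ext hb.symm (by simp [γ, hy]))
  have hp0 : γ 0 = q := by simp [γ]
  simp only [hp1, hp0] at hlt
  exact hlt

/-- Properties of one branch on the closed ball of radius `r`. -/
structure IsBranch (e : E3) (r : ℝ) (φ ψ : E3 → E3) : Prop where
  near_left : ∀ a ∈ closedBall (0 : E3) r, ‖φ a - e‖ ≤ 1 / 100
  near_right : ∀ a ∈ closedBall (0 : E3) r, ‖ψ a - -e‖ ≤ 1 / 100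
  value : ∀ a ∈ closedBall (0 : E3) r, |redCost e (a, φ a, ψ a) - 15 / 4| ≤ 1 / 100
  cont_left : ContinuousOn φ (closedBall (0 : E3) r)
  cont_right : ContinuousOn ψ (closedBall (0 : E3) r)
  expand_left : ∃ m > 0, ∀ x ∈ closedBall (0 : E3) r, ∀ y ∈ closedBall (0 : E3) r,
    m * ‖x - y‖ ≤ ‖φ x - φ y‖
  expand_right : ∃ m > 0, ∀ x ∈ closedBall (0 : E3) r, ∀ y ∈ closedBall (0 : E3) r,
    m * ‖x - y‖ ≤ ‖ψ x - ψ y‖
  minimal : ∀ a ∈ closedBall (0 : E3) r, ∀ a' ∈ closedBall (0 : E3) r,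
    ∀ a'' ∈ closedBall (0 : E3) r,
      redCost e (a, φ a, ψ a) ≤ redCost e (a', φ a, ψ a'') ∧
      (redCost e (a, φ a, ψ a) = redCost e (a', φ a, ψ a'') → a' = a ∧ ψ a'' = ψ a)

theorem IsBranch.anti {e : E3} {r s : ℝ} {φ ψ : E3 → E3} (h : IsBranch e r φ ψ) (hs : s ≤ r) :
    IsBranch e s φ ψ := by
  have hsub : closedBall (0 : E3) s ⊆ closedBall 0 r := closedBall_subset_closedBall hs
  refine ⟨fun a ha => h.near_left a (hsub ha), fun a ha => h.near_right a (hsub ha),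
    fun a ha => h.value a (hsub ha), h.cont_left.mono hsub, h.cont_right.mono hsub, ?_, ?_,
    fun a ha a' ha' a'' ha'' => h.minimal a (hsub ha) a' (hsub ha') a'' (hsub ha'')⟩
  · obtain ⟨m, hm, hmm⟩ := h.expand_left
    exact ⟨m, hm, fun x hx y hy => hmm x (hsub hx) y (hsub hy)⟩
  · obtain ⟨m, hm, hmm⟩ := h.expand_right
    exact ⟨m, hm, fun x hx y hy => hmm x (hsub hx) y (hsub hy)⟩

theorem exists_branch {e : E3} (he : ‖e‖ = 1) :
    ∃ r : ℝ, 0 < r ∧ ∃ φ ψ : E3 → E3, IsBranch e r φ ψ := by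
  have hΦ : HasStrictFDerivAt (statMap e) (statEquiv he : T3 →L[ℝ] T3) (0, e, -e) := by
    rw [statEquiv_coe he]; exact hasStrictFDerivAt_statMap he
  let ι := hΦ.localInverse (statMap e) (statEquiv he) (0, e, -e)
  have hι : HasStrictFDerivAt ι ((statEquiv he).symm : T3 →L[ℝ] T3) (0, 0, 0) := by
    have := hΦ.to_localInverse
    rwa [statMap_base he] at this
  have hι0 : ι (0, 0, 0) = (0, e, -e) := by
    have := hΦ.localInverse_apply_image
    rwa [statMap_base he] at this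
  let J : E3 →L[ℝ] T3 := ContinuousLinearMap.inl ℝ E3 (E3 × E3)
  let σ : E3 → T3 := fun a => ι (a, 0, 0)
  have hσ : HasStrictFDerivAt σ (((statEquiv he).symm : T3 →L[ℝ] T3).comp J) 0 := by
    have hJ : HasStrictFDerivAt (fun a : E3 => ((a, 0, 0) : T3)) J 0 := J.hasStrictFDerivAt
    exact HasStrictFDerivAt.comp (g := ι) (f := fun a : E3 => ((a, 0, 0) : T3)) 0 hι hJ
  have hσ0 : σ 0 = (0, e, -e) := hι0
  have hφ := p2.hasStrictFDerivAt.comp 0 hσ
  have hψ := p3.hasStrictFDerivAt.comp 0 hσ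
  have hsolve : ∀ h : E3, statDeriv e ((statEquiv he).symm (h, 0, 0)) = (h, 0, 0) := by
    intro h
    rw [← statEquiv_coe he]
    exact (statEquiv he).apply_symm_apply _
  have hφinj : ∀ h, (p2.comp (((statEquiv he).symm : T3 →L[ℝ] T3).comp J)) h = 0 → h = 0 := by
    intro h hh
    have hv := hsolve h
    have hb : ((statEquiv he).symm (h, 0, 0)).2.1 = 0 := hh
    generalize (statEquiv he).symm (h, 0, 0) = v at hv hb
    obtain ⟨a, b, k⟩ := v
    simp only at hb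
    subst hb
    have hco := coercive he a k
    have ha : a = h := by rw [statDeriv_apply] at hv; exact congrArg Prod.fst hv
    rw [hv] at hco
    simp at hco
    have : ‖a‖ = 0 := by nlinarith [sq_nonneg ‖k‖, norm_nonneg a]
    rw [← ha]; exact norm_eq_zero.mp this
  have hψinj : ∀ h, (p3.comp (((statEquiv he).symm : T3 →L[ℝ] T3).comp J)) h = 0 → h = 0 := by
    intro h hh
    have hv := hsolve h
    have hk : ((statEquiv he).symm (h, 0, 0)).2.2 = 0 := hh
    generalize (statEquiv he).symm (h, 0, 0) = v at hv hk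
    obtain ⟨a, b, k⟩ := v
    simp only at hk
    subst hk
    rw [statDeriv_apply] at hv
    simp only [Prod.mk.injEq] at hv
    obtain ⟨rfl, h1, h2⟩ := hv
    simp only [zero_sub, map_sub, map_neg, sub_zero, smul_zero, add_zero, smul_neg] at h1 h2
    refine hess_eq_smul he (c := -(2 / 5)) ?_ (by norm_num) (by norm_num)
    linear_combination (norm := module) (1 / 10 : ℝ) • h1 - (4 / 5 : ℝ) • h2
  obtain ⟨δ1, hδ1, m1, hm1, hexp1⟩ := bilip_of_strict hφ hφinj
  obtain ⟨δ2, hδ2, m2, hm2, hexp2⟩ := bilip_of_strict hψ hψinj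
  obtain ⟨δ, hδ, hδ8, hmon⟩ := exists_monotone he
  have hbase : (0, e, -e) ∈ ball ((0, e, -e) : T3) δ := mem_ball_self hδ
  have hcσ : ContinuousAt σ 0 := hσ.hasFDerivAt.continuousAt
  have E1 : ∀ᶠ a in 𝓝 (0 : E3), σ a ∈ ball ((0, e, -e) : T3) δ := by
    apply hcσ.eventually_mem
    rw [hσ0]; exact ball_mem_nhds _ hδ
  have E2 : ∀ᶠ a in 𝓝 (0 : E3), statMap e (σ a) = (a, 0, 0) := by
    have := hΦ.eventually_right_inverse
    rw [statMap_base he] at this
    have hc : ContinuousAt (fun a : E3 => ((a, 0, 0) : T3)) 0 := J.continuous.continuousAt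
    exact hc.eventually this
  have E3' : ∀ᶠ a in 𝓝 (0 : E3), dist (σ a) (0, e, -e) ≤ 1 / 100 := by
    have hcl : closedBall ((0, e, -e) : T3) (1 / 100) ∈ 𝓝 (σ 0) := by
      rw [hσ0]; exact closedBall_mem_nhds _ (by norm_num)
    exact (hcσ.eventually_mem hcl).mono fun a ha => mem_closedBall.mp ha
  have hne := norm_pos_of_mem he hδ8 hbase
  have hcR : ContinuousAt (redCost e) (0, e, -e) := by
    obtain ⟨n1, n2, n3⟩ := hne
    unfold redCost
    have h1 : ContinuousAt (fun p : T3 => ‖p.1 - p.2.1‖⁻¹) (0, e, -e) :=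
      ((continuous_fst.sub (continuous_fst.comp continuous_snd)).norm.continuousAt).inv₀
        (norm_ne_zero_iff.mpr n1)
    have h2 : ContinuousAt (fun p : T3 => ‖p.1 - p.2.2‖⁻¹) (0, e, -e) :=
      ((continuous_fst.sub (continuous_snd.comp continuous_snd)).norm.continuousAt).inv₀
        (norm_ne_zero_iff.mpr n2)
    have h3 : ContinuousAt (fun p : T3 => ‖p.2.1 - p.2.2‖⁻¹) (0, e, -e) :=
      (((continuous_fst.comp continuous_snd).sub
        (continuous_snd.comp continuous_snd)).norm.continuousAt).inv₀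
        (norm_ne_zero_iff.mpr n3)
    fun_prop
  have E4 : ∀ᶠ a in 𝓝 (0 : E3), |redCost e (σ a) - 15 / 4| ≤ 1 / 100 := by
    have hval : redCost e (0, e, -e) = 15 / 4 := by
      have h2 : (e - -e : E3) = (2 : ℝ) • e := by module
      simp [redCost, h2, norm_smul, he]
      norm_num
    have hc : ContinuousAt (fun a => redCost e (σ a)) 0 :=
      ContinuousAt.comp (g := redCost e) (by rw [hσ0]; exact hcR) hcσ
    have hcl : closedBall (15 / 4 : ℝ) (1 / 100) ∈ 𝓝 (redCost e (σ 0)) := by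
      rw [hσ0, hval]; exact closedBall_mem_nhds _ (by norm_num)
    exact (hc.eventually_mem hcl).mono fun a ha => by
      simpa [Real.dist_eq] using mem_closedBall.mp ha
  have E5 : ∀ᶠ a in 𝓝 (0 : E3), ContinuousAt σ a := by
    obtain ⟨K, s, hs, hL⟩ := hσ.exists_lipschitzOnWith
    filter_upwards [eventually_mem_nhds_iff.mpr hs] with a ha
    exact hL.continuousOn.continuousAt ha
  obtain ⟨r, hr, hall⟩ := nhds_basis_closedBall.eventually_iff.mp
    (E1.and (E2.and (E3'.and (E4.and (E5.and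
      ((eventually_mem_set.mpr (ball_mem_nhds (0 : E3) hδ1)).and
        (eventually_mem_set.mpr (ball_mem_nhds (0 : E3) hδ2))))))))
  have hfst : ∀ a ∈ closedBall (0 : E3) r, σ a = (a, (σ a).2.1, (σ a).2.2) := by
    intro a ha
    have h := congrArg Prod.fst (hall ha).2.1
    simp only [statMap] at h
    exact Prod.ext h rfl
  refine ⟨r, hr, fun a => (σ a).2.1, fun a => (σ a).2.2, ?_⟩
  refine ⟨?_, ?_, ?_, ?_, ?_, ⟨m1, hm1, ?_⟩, ⟨m2, hm2, ?_⟩, ?_⟩
  · intro a ha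
    have h := (hall ha).2.2.1
    rw [Prod.dist_eq, Prod.dist_eq, max_le_iff, max_le_iff] at h
    simp only [dist_eq_norm] at h
    exact h.2.1
  · intro a ha
    have h := (hall ha).2.2.1
    rw [Prod.dist_eq, Prod.dist_eq, max_le_iff, max_le_iff] at h
    simp only [dist_eq_norm] at h
    exact h.2.2
  · intro a ha
    rw [← hfst a ha]
    exact (hall ha).2.2.2.1
  · intro a ha
    exact ((hall ha).2.2.2.2.1.snd.fst).continuousWithinAt
  · intro a ha
    exact ((hall ha).2.2.2.2.1.snd.snd).continuousWithinAt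
  · intro x hx y hy
    exact hexp1 x (hall hx).2.2.2.2.2.1 y (hall hy).2.2.2.2.2.1
  · intro x hx y hy
    exact hexp2 x (hall hx).2.2.2.2.2.2 y (hall hy).2.2.2.2.2.2
  · intro a ha a' ha' a'' ha''
    have hq : σ a ∈ ball ((0, e, -e) : T3) δ := (hall ha).1
    have hp : ((a', (σ a).2.1, (σ a'').2.2) : T3) ∈ ball ((0, e, -e) : T3) δ := by
      have A := (hall ha').1
      have B := (hall ha'').1
      rw [hfst a' ha'] at A
      simp only [mem_ball, Prod.dist_eq, max_lt_iff] at hq A B ⊢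
      exact ⟨A.1, hq.2.1, B.2.2⟩
    have hst := (hall ha).2.1
    simp only [statMap, Prod.mk.injEq] at hst
    rw [← hfst a ha]
    by_cases hpq : ((a', (σ a).2.1, (σ a'').2.2) : T3) = σ a
    · rw [hpq]
      refine ⟨le_rfl, fun _ => ⟨?_, ?_⟩⟩
      · rw [hfst a ha] at hpq; exact congrArg Prod.fst hpq
      · have hk := congrArg (fun p : T3 => p.2.2) hpq
        exact hk
    · have hlt := redCost_lt he hδ8 hmon hp hq rfl hst.2.1 hst.2.2 hpq
      exact ⟨hlt.le, fun h => absurd h hlt.ne⟩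

end Vale.Agent.P121
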