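import Mathlib.Analysis.InnerProductSpace.PiL2
import Mathlib.MeasureTheory.Measure.Map
import Mathlib.MeasureTheory.Measure.Haar.InnerProductSpace
import Mathlib.MeasureTheory.Constructions.BorelSpace.Basic

open MeasureTheory
open scoped ENNReal

noncomputable section

namespace Vale.Agent.P121

/-- The three-particle Coulomb cost, equal to `∞` when two points coincide. -/
def coulombCost (x y z : EuclideanSpace ℝ (Fin 3)) : ℝ≥0∞ :=
  (edist x y)⁻¹ + (edist x z)⁻¹ + (edist y z)⁻¹

/-- `π` is a coupling whose three coordinate marginals all equal `μ`. -/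
def IsCoupling (μ : Measure (EuclideanSpace ℝ (Fin 3)))
    (π : Measure (EuclideanSpace ℝ (Fin 3) × EuclideanSpace ℝ (Fin 3) × EuclideanSpace ℝ (Fin 3))) :
    Prop :=
  π.map (fun t => t.1) = μ ∧ π.map (fun t => t.2.1) = μ ∧ π.map (fun t => t.2.2) = μ

end Vale.Agent.P121
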