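import Mathlib.MeasureTheory.Measure.Hausdorff
import Mathlib.MeasureTheory.Measure.Haar.InnerProductSpace
import Mathlib.MeasureTheory.Measure.Haar.Unique
import Mathlib.MeasureTheory.Constructions.Polish.Basic
import Mathlib.MeasureTheory.Integral.Lebesgue.Markov
import Vale.Agent.P121.Branch
import Vale.Agent.P121.Defs

/-!
The counterexample: one cluster of mass `1/3` near the origin and four clusters of mass `1/6`
near `±e₀`, `±e₁`.
-/

open scoped RealInnerProductSpace Topology ENNReal NNReal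
open MeasureTheory Filter Set Metric

noncomputable section

namespace Vale.Agent.P121

/-- The two axes. -/
def axis (j : Fin 2) : E3 := EuclideanSpace.single (Fin.castSucc j) (1 : ℝ)

theorem norm_axis (j : Fin 2) : ‖axis j‖ = 1 := by simp [axis]

theorem inner_axis {j k : Fin 2} (h : j ≠ k) : ⟪axis j, axis k⟫ = 0 := by
  simp [axis, EuclideanSpace.inner_single_left, h]

/-- The four centres. -/
def centre (i : Fin 2 × Fin 2) : E3 := if i.2 = 0 then axis i.1 else -axis i.1

theorem norm_centre (i : Fin 2 × Fin 2) : ‖centre i‖ = 1 := by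
  unfold centre; split <;> simp [norm_axis]

theorem centre_sub_le_two (i k : Fin 2 × Fin 2) : ‖centre i - centre k‖ ≤ 2 := by
  have := norm_sub_le (centre i) (centre k)
  rw [norm_centre, norm_centre] at this
  linarith

theorem centre_sub_sq {i k : Fin 2 × Fin 2} (h : i.1 ≠ k.1) :
    ‖centre i - centre k‖ ^ 2 = 2 := by
  have h0 : ⟪centre i, centre k⟫ = 0 := by
    unfold centre; split <;> split <;> simp [inner_axis h]
  rw [norm_sub_sq_real, norm_centre, norm_centre, h0]
  norm_num

theorem one_le_centre_sub {i k : Fin 2 × Fin 2} (h : i ≠ k) : 1 ≤ ‖centre i - centre k‖ := by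
  by_cases h1 : i.1 = k.1
  · obtain ⟨j, s⟩ := i
    obtain ⟨j', s'⟩ := k
    simp only at h1
    subst h1
    have hv : (axis j - -axis j : E3) = (2 : ℝ) • axis j := by module
    have hv' : (-axis j - axis j : E3) = (-2 : ℝ) • axis j := by module
    fin_cases s <;> fin_cases s' <;>
      first
        | exact absurd rfl h
        | simp [centre, hv, hv', norm_smul, norm_axis]
  · nlinarith [centre_sub_sq h1, norm_nonneg (centre i - centre k)]

/-- Branch data. -/
structure Data where
  r : ℝ
  r_pos : 0 < r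
  r_le : r ≤ 1 / 100
  φ : Fin 2 → E3 → E3
  ψ : Fin 2 → E3 → E3
  φ_meas : ∀ j, Measurable (φ j)
  ψ_meas : ∀ j, Measurable (ψ j)
  branch : ∀ j, IsBranch (axis j) r (φ j) (ψ j)

theorem exists_data : Nonempty Data := by
  classical
  choose r hr φ ψ hb using fun j : Fin 2 => exists_branch (norm_axis j)
  let ρ := min (1 / 100) (min (r 0) (r 1))
  have hρ : 0 < ρ := lt_min (by norm_num) (lt_min (hr 0) (hr 1))
  have hρj : ∀ j, ρ ≤ r j := by
    intro j
    fin_cases j
    · exact (min_le_right _ _).trans (min_le_left _ _)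
    · exact (min_le_right _ _).trans (min_le_right _ _)
  let A := closedBall (0 : E3) ρ
  refine ⟨⟨ρ, hρ, min_le_left _ _, fun j => A.piecewise (φ j) (fun _ => 0),
    fun j => A.piecewise (ψ j) (fun _ => 0), fun j => ?_, fun j => ?_, fun j => ?_⟩⟩
  · exact ((hb j).anti (hρj j)).cont_left.measurable_piecewise continuousOn_const
      measurableSet_closedBall
  · exact ((hb j).anti (hρj j)).cont_right.measurable_piecewise continuousOn_const
      measurableSet_closedBall
  · have H := (hb j).anti (hρj j)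
    have e1 : EqOn (A.piecewise (φ j) (fun _ => 0)) (φ j) A := piecewise_eqOn _ _ _
    have e2 : EqOn (A.piecewise (ψ j) (fun _ => 0)) (ψ j) A := piecewise_eqOn _ _ _
    refine ⟨fun a ha => ?_, fun a ha => ?_, fun a ha => ?_, H.cont_left.congr e1,
      H.cont_right.congr e2, ?_, ?_, fun a ha a' ha' a'' ha'' => ?_⟩
    · rw [e1 ha]; exact H.near_left a ha
    · rw [e2 ha]; exact H.near_right a ha
    · rw [e1 ha, e2 ha]; exact H.value a ha
    · obtain ⟨m, hm, hmm⟩ := H.expand_left
      exact ⟨m, hm, fun x hx y hy => by rw [e1 hx, e1 hy]; exact hmm x hx y hy⟩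
    · obtain ⟨m, hm, hmm⟩ := H.expand_right
      exact ⟨m, hm, fun x hx y hy => by rw [e2 hx, e2 hy]; exact hmm x hx y hy⟩
    · rw [e1 ha, e2 ha, e2 ha'']; exact H.minimal a ha a' ha' a'' ha''

variable (D : Data)

def Data.A : Set E3 := closedBall 0 D.r

theorem Data.norm_le {a : E3} (ha : a ∈ D.A) : ‖a‖ ≤ 1 / 100 := by
  simp only [Data.A, mem_closedBall, dist_zero_right] at ha
  exact ha.trans D.r_le

def Data.map4 (i : Fin 2 × Fin 2) : E3 → E3 := if i.2 = 0 then D.φ i.1 else D.ψ i.1

theorem Data.map4_meas (i : Fin 2 × Fin 2) : Measurable (D.map4 i) := by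
  unfold Data.map4; split
  · exact D.φ_meas _
  · exact D.ψ_meas _

theorem Data.map4_cont (i : Fin 2 × Fin 2) : ContinuousOn (D.map4 i) D.A := by
  unfold Data.map4; split
  · exact (D.branch _).cont_left
  · exact (D.branch _).cont_right

theorem Data.map4_near (i : Fin 2 × Fin 2) {a : E3} (ha : a ∈ D.A) :
    ‖D.map4 i a - centre i‖ ≤ 1 / 100 := by
  unfold Data.map4 centre; split
  · exact (D.branch _).near_left a ha
  · exact (D.branch _).near_right a ha

theorem Data.map4_expand (i : Fin 2 × Fin 2) :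
    ∃ m > 0, ∀ x ∈ D.A, ∀ y ∈ D.A, m * ‖x - y‖ ≤ ‖D.map4 i x - D.map4 i y‖ := by
  unfold Data.map4; split
  · exact (D.branch _).expand_left
  · exact (D.branch _).expand_right

theorem Data.map4_injOn (i : Fin 2 × Fin 2) : InjOn (D.map4 i) D.A := by
  obtain ⟨m, hm, hmm⟩ := D.map4_expand i
  intro x hx y hy h
  have := hmm x hx y hy
  rw [h, sub_self, norm_zero] at this
  have : ‖x - y‖ ≤ 0 := by nlinarith [norm_nonneg (x - y)]
  exact sub_eq_zero.mp (norm_le_zero_iff.mp this)

def Data.piece (i : Fin 2 × Fin 2) : Set E3 := D.map4 i '' D.A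

def Data.supp : Set E3 := D.A ∪ ⋃ i, D.piece i

theorem Data.A_compact : IsCompact D.A := isCompact_closedBall _ _

theorem Data.piece_compact (i : Fin 2 × Fin 2) : IsCompact (D.piece i) :=
  D.A_compact.image_of_continuousOn (D.map4_cont i)

theorem Data.supp_compact : IsCompact D.supp :=
  D.A_compact.union (isCompact_iUnion D.piece_compact)

theorem Data.piece_near {i : Fin 2 × Fin 2} {x : E3} (hx : x ∈ D.piece i) :
    ‖x - centre i‖ ≤ 1 / 100 := by
  obtain ⟨a, ha, rfl⟩ := hx
  exact D.map4_near i ha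

theorem Data.not_A_of_piece {i : Fin 2 × Fin 2} {x : E3} (hx : x ∈ D.piece i) : x ∉ D.A := by
  intro hA
  have h1 := D.norm_le hA
  have h2 := D.piece_near hx
  have h3 := norm_sub_le x (x - centre i)
  rw [sub_sub_cancel, norm_centre] at h3
  linarith

theorem Data.piece_unique {i k : Fin 2 × Fin 2} {x : E3} (hi : x ∈ D.piece i)
    (hk : x ∈ D.piece k) : i = k := by
  by_contra h
  have h1 := D.piece_near hi
  have h2 := D.piece_near hk
  have h3 := one_le_centre_sub h
  have h4 := norm_sub_le (x - centre k) (x - centre i)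
  rw [sub_sub_sub_cancel_left] at h4
  linarith

/-! ### Potential -/

def potA (a : E3) : ℝ := 5 / 2 - 2 * ‖a‖ ^ 2

def potK (j : Fin 2) (k : E3) : ℝ :=
  -2 * ‖k + axis j‖ ^ 2 + 5 / 4 * ⟪axis j, k⟫ + 5 / 4

open Classical in
def Data.inv (j : Fin 2) : E3 → E3 :=
  (D.piece (j, 0)).piecewise (Function.invFunOn (D.φ j) D.A) (fun _ => 0)

def Data.potB (j : Fin 2) (b : E3) : ℝ :=
  redCost (axis j) (D.inv j b, b, D.ψ j (D.inv j b)) - 15 / 4

def Data.piecePot (i : Fin 2 × Fin 2) : E3 → ℝ :=
  if i.2 = 0 then D.potB i.1 else potK i.1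

def Data.pot : E3 → ℝ :=
  D.A.indicator potA + ∑ i, (D.piece i).indicator (D.piecePot i)

open Classical in
theorem Data.inv_apply (j : Fin 2) {a : E3} (ha : a ∈ D.A) : D.inv j (D.φ j a) = a := by
  have hmem : D.φ j a ∈ D.piece (j, 0) := ⟨a, ha, by simp [Data.map4]⟩
  rw [Data.inv, piecewise_eq_of_mem _ _ _ hmem]
  have hinj : InjOn (D.φ j) D.A := by simpa [Data.map4] using D.map4_injOn (j, 0)
  exact hinj.leftInvOn_invFunOn ha

theorem Data.inv_meas (j : Fin 2) : Measurable (D.inv j) := by
  classical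
  refine ContinuousOn.measurable_piecewise ?_ continuousOn_const
    (D.piece_compact _).isClosed.measurableSet
  obtain ⟨m, hm, hmm⟩ := (D.branch j).expand_left
  have hinj : InjOn (D.φ j) D.A := by simpa [Data.map4] using D.map4_injOn (j, 0)
  have hlip : LipschitzOnWith (Real.toNNReal m⁻¹) (Function.invFunOn (D.φ j) D.A)
      (D.piece (j, 0)) := by
    apply LipschitzOnWith.of_dist_le'
    rintro _ ⟨x, hx, rfl⟩ _ ⟨y, hy, rfl⟩
    simp only [Data.map4, ↓reduceIte]
    rw [hinj.leftInvOn_invFunOn hx, hinj.leftInvOn_invFunOn hy, dist_eq_norm, dist_eq_norm]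
    rw [inv_mul_eq_div, le_div_iff₀ hm, mul_comm]
    exact hmm x hx y hy
  exact hlip.continuousOn

theorem Data.piecePot_meas (i : Fin 2 × Fin 2) : Measurable (D.piecePot i) := by
  unfold Data.piecePot; split
  · have h1 := D.inv_meas i.1
    have h2 := (D.ψ_meas i.1).comp h1
    unfold Data.potB redCost
    fun_prop
  · unfold potK
    fun_prop

theorem Data.pot_meas : Measurable D.pot := by
  have hA : Measurable potA := by unfold potA; fun_prop
  unfold Data.pot
  exact (hA.indicator D.A_compact.isClosed.measurableSet).add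
    (by
      simpa only [← Finset.sum_apply] using Finset.measurable_sum Finset.univ fun i _ =>
        (D.piecePot_meas i).indicator (D.piece_compact i).isClosed.measurableSet)

theorem Data.pot_A {a : E3} (ha : a ∈ D.A) : D.pot a = potA a := by
  simp only [Data.pot, Pi.add_apply, Finset.sum_apply, indicator_of_mem ha]
  rw [Finset.sum_eq_zero, add_zero]
  intro i _
  exact indicator_of_notMem (fun h => D.not_A_of_piece h ha) _

theorem Data.pot_piece {i : Fin 2 × Fin 2} {x : E3} (hx : x ∈ D.piece i) :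
    D.pot x = D.piecePot i x := by
  simp only [Data.pot, Pi.add_apply, Finset.sum_apply,
    indicator_of_notMem (D.not_A_of_piece hx), zero_add]
  rw [Finset.sum_eq_single i (fun k _ hk => indicator_of_notMem
    (fun h => hk (D.piece_unique h hx)) _) (by simp), indicator_of_mem hx]

theorem Data.pot_A_bound {a : E3} (ha : a ∈ D.A) :
    5 / 2 - 1 / 50 ≤ D.pot a ∧ D.pot a ≤ 5 / 2 + 1 / 50 := by
  rw [D.pot_A ha, potA]
  have h := D.norm_le ha
  constructor <;> nlinarith [norm_nonneg a]

theorem Data.pot_piece_bound {i : Fin 2 × Fin 2} {x : E3} (hx : x ∈ D.piece i) :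
    -(1 / 50) ≤ D.pot x ∧ D.pot x ≤ 1 / 50 := by
  rw [D.pot_piece hx]
  obtain ⟨j, s⟩ := i
  obtain ⟨a, ha, rfl⟩ := hx
  fin_cases s
  · have h := abs_le.mp ((D.branch j).value a ha)
    simp [Data.piecePot, Data.map4, Data.potB, D.inv_apply j ha]
    constructor <;> linarith
  · have h := (D.branch j).near_right a ha
    simp only [sub_neg_eq_add] at h
    have hi := abs_le.mp (abs_real_inner_le_norm (axis j) (D.ψ j a + axis j))
    rw [norm_axis, one_mul, inner_add_right, real_inner_self_eq_norm_sq, norm_axis] at hi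
    simp [Data.piecePot, Data.map4, potK]
    constructor <;> nlinarith [norm_nonneg (D.ψ j a + axis j)]

/-- Shifted nonnegative potential. -/
def Data.U (x : E3) : ℝ≥0∞ := ENNReal.ofReal (D.pot x + 10)

theorem Data.U_meas : Measurable D.U :=
  (D.pot_meas.add_const 10).ennreal_ofReal

theorem Data.pot_supp_bound {x : E3} (hx : x ∈ D.supp) : -1 ≤ D.pot x ∧ D.pot x ≤ 3 := by
  rcases hx with hA | hB
  · have := D.pot_A_bound hA; constructor <;> linarith
  · obtain ⟨i, hi⟩ := mem_iUnion.mp hB
    have := D.pot_piece_bound hi; constructor <;> linarith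

theorem Data.U_sum {x y z : E3} (hx : x ∈ D.supp) (hy : y ∈ D.supp) (hz : z ∈ D.supp) :
    D.U x + D.U y + D.U z = ENNReal.ofReal (D.pot x + D.pot y + D.pot z + 30) := by
  have := D.pot_supp_bound hx; have := D.pot_supp_bound hy; have := D.pot_supp_bound hz
  unfold Data.U
  rw [← ENNReal.ofReal_add (by linarith) (by linarith),
    ← ENNReal.ofReal_add (by linarith) (by linarith)]
  ring_nf

theorem inv_edist_ge {x y : E3} {d : ℝ} (hd : 0 < d) (h : ‖x - y‖ ≤ d) :
    ENNReal.ofReal d⁻¹ ≤ (edist x y)⁻¹ := by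
  rw [ENNReal.ofReal_inv_of_pos hd, edist_dist, dist_eq_norm]
  exact ENNReal.inv_le_inv.mpr (ENNReal.ofReal_le_ofReal h)

theorem inv_edist_eq {x y : E3} (h : x - y ≠ 0) :
    (edist x y)⁻¹ = ENNReal.ofReal ‖x - y‖⁻¹ := by
  rw [edist_dist, dist_eq_norm, ENNReal.ofReal_inv_of_pos (norm_pos_iff.mpr h)]

theorem Data.strict_of {x y z : E3} (hx : x ∈ D.supp) (hy : y ∈ D.supp) (hz : z ∈ D.supp)
    {w : ℝ} (hw : ENNReal.ofReal w ≤ coulombCost x y z)
    (hlt : D.pot x + D.pot y + D.pot z < w) (hw0 : 0 ≤ w) :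
    D.U x + D.U y + D.U z < coulombCost x y z + ENNReal.ofReal 30 := by
  rw [D.U_sum hx hy hz]
  refine lt_of_lt_of_le ?_ (add_le_add_left hw _)
  rw [← ENNReal.ofReal_add hw0 (by norm_num), ENNReal.ofReal_lt_ofReal_iff (by linarith)]
  linarith

theorem Data.strict_close {x y z : E3} (hx : x ∈ D.supp) (hy : y ∈ D.supp) (hz : z ∈ D.supp)
    (h : ‖x - y‖ ≤ 1 / 50 ∨ ‖x - z‖ ≤ 1 / 50 ∨ ‖y - z‖ ≤ 1 / 50) :
    D.U x + D.U y + D.U z < coulombCost x y z + ENNReal.ofReal 30 := by
  have := D.pot_supp_bound hx; have := D.pot_supp_bound hy; have := D.pot_supp_bound hz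
  refine D.strict_of hx hy hz (w := (1 / 50 : ℝ)⁻¹) ?_ (by linarith) (by positivity)
  rcases h with h | h | h
  · exact (inv_edist_ge (by norm_num) h).trans (le_add_right le_self_add)
  · exact (inv_edist_ge (by norm_num) h).trans (le_add_right le_add_self)
  · exact (inv_edist_ge (by norm_num) h).trans le_add_self

theorem Data.contact_eq {j : Fin 2} {x a a'' : E3} (hx : x ∈ D.A) (ha : a ∈ D.A)
    (ha'' : a'' ∈ D.A) :
    D.U x + D.U (D.φ j a) + D.U (D.ψ j a'') ≤
        coulombCost x (D.φ j a) (D.ψ j a'') + ENNReal.ofReal 30 ∧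
      (D.U x + D.U (D.φ j a) + D.U (D.ψ j a'') =
        coulombCost x (D.φ j a) (D.ψ j a'') + ENNReal.ofReal 30 →
        a = x ∧ D.ψ j a'' = D.ψ j a) ∧
      (a = x → a'' = a → D.U x + D.U (D.φ j a) + D.U (D.ψ j a'') =
        coulombCost x (D.φ j a) (D.ψ j a'') + ENNReal.ofReal 30) := by
  have hb : D.φ j a ∈ D.piece (j, 0) := ⟨a, ha, by simp [Data.map4]⟩
  have hk : D.ψ j a'' ∈ D.piece (j, 1) := ⟨a'', ha'', by simp [Data.map4]⟩
  have hball : ((x, D.φ j a, D.ψ j a'') : T3) ∈ ball ((0, axis j, -axis j) : T3) (1 / 8) := by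
    rw [mem_ball, Prod.dist_eq, Prod.dist_eq, dist_eq_norm, dist_eq_norm, dist_eq_norm, sub_zero]
    have h1 := D.norm_le hx
    have h2 := (D.branch j).near_left a ha
    have h3 := (D.branch j).near_right a'' ha''
    exact max_lt (by linarith) (max_lt (by linarith) (by linarith))
  obtain ⟨n1, n2, n3⟩ := norm_pos_of_mem (norm_axis j) le_rfl hball
  simp only at n1 n2 n3
  set C := ‖x - D.φ j a‖⁻¹ + ‖x - D.ψ j a''‖⁻¹ + ‖D.φ j a - D.ψ j a''‖⁻¹ with hC
  have hc : coulombCost x (D.φ j a) (D.ψ j a'') = ENNReal.ofReal C := by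
    rw [coulombCost, inv_edist_eq n1, inv_edist_eq n2, inv_edist_eq n3, hC,
      ENNReal.ofReal_add (by positivity) (by positivity),
      ENNReal.ofReal_add (by positivity) (by positivity)]
  have hC0 : 0 ≤ C := by positivity
  rw [D.U_sum (Or.inl hx) (Or.inr (mem_iUnion.mpr ⟨_, hb⟩)) (Or.inr (mem_iUnion.mpr ⟨_, hk⟩)),
    hc, ← ENNReal.ofReal_add hC0 (by norm_num), D.pot_A hx, D.pot_piece hb, D.pot_piece hk]
  have hmin := (D.branch j).minimal a ha x hx a'' ha''
  have hgap : potA x + D.piecePot (j, 0) (D.φ j a) + D.piecePot (j, 1) (D.ψ j a'') = C -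
      (redCost (axis j) (x, D.φ j a, D.ψ j a'')
        - redCost (axis j) (a, D.φ j a, D.ψ j a)) := by
    simp [Data.piecePot, Data.potB, D.inv_apply j ha, potA, potK, hC]
    simp [redCost]
    ring
  rw [hgap]
  refine ⟨ENNReal.ofReal_le_ofReal (by linarith [hmin.1]), fun h => ?_, fun h h' => ?_⟩
  · have hA := D.pot_supp_bound (Or.inl hx : x ∈ D.supp)
    have hB := D.pot_supp_bound (Or.inr (mem_iUnion.mpr ⟨_, hb⟩) : D.φ j a ∈ D.supp)
    have hK := D.pot_supp_bound (Or.inr (mem_iUnion.mpr ⟨_, hk⟩) : D.ψ j a'' ∈ D.supp)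
    rw [D.pot_A hx] at hA
    rw [D.pot_piece hb] at hB
    rw [D.pot_piece hk] at hK
    rw [ENNReal.ofReal_eq_ofReal_iff (by linarith) (by linarith)] at h
    obtain ⟨h1, h2⟩ := hmin.2 (by linarith)
    exact ⟨h1.symm, h2⟩
  · subst h'; subst h
    simp

/-- Analysis of a triple whose first point is in the central cluster. -/
theorem Data.key_A {x y z : E3} (hx : x ∈ D.A) (hy : y ∈ D.supp) (hz : z ∈ D.supp) :
    D.U x + D.U y + D.U z ≤ coulombCost x y z + ENNReal.ofReal 30 ∧
      (D.U x + D.U y + D.U z = coulombCost x y z + ENNReal.ofReal 30 →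
        ∃ i, y = D.map4 i x) := by
  have hx' : x ∈ D.supp := Or.inl hx
  have strict : D.U x + D.U y + D.U z < coulombCost x y z + ENNReal.ofReal 30 →
      D.U x + D.U y + D.U z ≤ coulombCost x y z + ENNReal.ofReal 30 ∧
      (D.U x + D.U y + D.U z = coulombCost x y z + ENNReal.ofReal 30 →
        ∃ i, y = D.map4 i x) := fun h => ⟨h.le, fun e => absurd e h.ne⟩
  have two : ∀ {u v : E3}, u ∈ D.A → v ∈ D.A → ‖u - v‖ ≤ 1 / 50 := fun {u v} hu hv => by
    have := D.norm_le hu; have := D.norm_le hv; have := norm_sub_le u v; linarith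
  by_cases hyA : y ∈ D.A
  · exact strict (D.strict_close hx' hy hz (Or.inl (two hx hyA)))
  by_cases hzA : z ∈ D.A
  · exact strict (D.strict_close hx' hy hz (Or.inr (Or.inl (two hx hzA))))
  obtain ⟨i, hi⟩ := mem_iUnion.mp (hy.resolve_left hyA)
  obtain ⟨k, hk⟩ := mem_iUnion.mp (hz.resolve_left hzA)
  by_cases hik : i = k
  · subst hik
    refine strict (D.strict_close hx' hy hz (Or.inr (Or.inr ?_)))
    have := D.piece_near hi; have := D.piece_near hk
    have h := norm_sub_le (y - centre i) (z - centre i)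
    rw [sub_sub_sub_cancel_right] at h
    linarith
  by_cases hj : i.1 = k.1
  · obtain ⟨j, s⟩ := i
    obtain ⟨j', s'⟩ := k
    simp only at hj
    subst hj
    obtain ⟨a, ha, rfl⟩ := hi
    obtain ⟨b, hb, rfl⟩ := hk
    fin_cases s <;> fin_cases s'
    · exact absurd rfl hik
    · obtain ⟨h1, h2, -⟩ := D.contact_eq (j := j) hx ha hb
      exact ⟨h1, fun h => ⟨(j, 0), congrArg (D.φ j) (h2 h).1⟩⟩
    · obtain ⟨h1, h2, -⟩ := D.contact_eq (j := j) hx hb ha
      change D.U x + D.U (D.ψ j a) + D.U (D.φ j b) ≤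
          coulombCost x (D.ψ j a) (D.φ j b) + ENNReal.ofReal 30 ∧
        (D.U x + D.U (D.ψ j a) + D.U (D.φ j b) =
          coulombCost x (D.ψ j a) (D.φ j b) + ENNReal.ofReal 30 → ∃ i, D.ψ j a = D.map4 i x)
      have hs : coulombCost x (D.ψ j a) (D.φ j b) = coulombCost x (D.φ j b) (D.ψ j a) := by
        simp only [coulombCost]; rw [edist_comm (D.ψ j a) (D.φ j b)]; abel
      have hu : D.U x + D.U (D.ψ j a) + D.U (D.φ j b) =
          D.U x + D.U (D.φ j b) + D.U (D.ψ j a) := by abel
      refine ⟨?_, fun h => ⟨(j, 1), ?_⟩⟩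
      · exact (le_of_eq hu).trans (h1.trans_eq (by rw [hs]))
      · have h' : D.U x + D.U (D.φ j b) + D.U (D.ψ j a) =
            coulombCost x (D.φ j b) (D.ψ j a) + ENNReal.ofReal 30 := by
          rw [← hu, ← hs]; exact h
        obtain ⟨e1, e2⟩ := h2 h'
        exact e2.trans (congrArg (D.ψ j) e1)
    · exact absurd rfl hik
  · refine strict (D.strict_of hx' hy hz (w := (51 / 50 : ℝ)⁻¹ + (51 / 50 : ℝ)⁻¹ + (29 / 20 : ℝ)⁻¹)
      ?_ ?_ (by positivity))
    · rw [ENNReal.ofReal_add (by positivity) (by positivity),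
        ENNReal.ofReal_add (by positivity) (by positivity), coulombCost]
      have hxn := D.norm_le hx
      have hyn := D.piece_near hi
      have hzn := D.piece_near hk
      refine add_le_add (add_le_add ?_ ?_) ?_ <;> refine inv_edist_ge (by norm_num) ?_
      · have h := norm_sub_le x y
        have h' := norm_le_norm_add_norm_sub' y (centre i)
        rw [norm_centre] at h'
        linarith
      · have h := norm_sub_le x z
        have h' := norm_le_norm_add_norm_sub' z (centre k)
        rw [norm_centre] at h'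
        linarith
      · have hd : ‖centre i - centre k‖ ≤ 71 / 50 := by
          nlinarith [centre_sub_sq hj, norm_nonneg (centre i - centre k)]
        have h : y - z = (y - centre i) + (centre i - centre k) + (centre k - z) := by abel
        rw [h]
        have := norm_add₃_le (a := y - centre i) (b := centre i - centre k) (c := centre k - z)
        rw [norm_sub_rev (centre k) z] at this
        linarith
    · have := (D.pot_A_bound hx).2
      have := (D.pot_piece_bound hi).2
      have := (D.pot_piece_bound hk).2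
      norm_num
      linarith

/-- Dual feasibility on the whole support. -/
theorem Data.key_all {x y z : E3} (hx : x ∈ D.supp) (hy : y ∈ D.supp) (hz : z ∈ D.supp) :
    D.U x + D.U y + D.U z ≤ coulombCost x y z + ENNReal.ofReal 30 := by
  by_cases hxA : x ∈ D.A
  · exact (D.key_A hxA hy hz).1
  by_cases hyA : y ∈ D.A
  · calc D.U x + D.U y + D.U z = D.U y + D.U x + D.U z := by abel
      _ ≤ coulombCost y x z + ENNReal.ofReal 30 := (D.key_A hyA hx hz).1
      _ = _ := by simp only [coulombCost]; rw [edist_comm y x]; abel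
  by_cases hzA : z ∈ D.A
  · calc D.U x + D.U y + D.U z = D.U z + D.U x + D.U y := by abel
      _ ≤ coulombCost z x y + ENNReal.ofReal 30 := (D.key_A hzA hx hy).1
      _ = _ := by simp only [coulombCost]; rw [edist_comm z x, edist_comm z y]; abel
  obtain ⟨i, hi⟩ := mem_iUnion.mp (hx.resolve_left hxA)
  obtain ⟨k, hk⟩ := mem_iUnion.mp (hy.resolve_left hyA)
  obtain ⟨l, hl⟩ := mem_iUnion.mp (hz.resolve_left hzA)
  have far : ∀ {p q : Fin 2 × Fin 2} {u v : E3}, u ∈ D.piece p → v ∈ D.piece q →
      ‖u - v‖ ≤ 21 / 10 := by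
    intro p q u v hu hv
    have := D.piece_near hu
    have := D.piece_near hv
    have := centre_sub_le_two p q
    have h : u - v = (u - centre p) + (centre p - centre q) + (centre q - v) := by abel
    rw [h]
    have h' := norm_add₃_le (a := u - centre p) (b := centre p - centre q) (c := centre q - v)
    rw [norm_sub_rev (centre q) v] at h'
    linarith
  refine (D.strict_of hx hy hz
    (w := (21 / 10 : ℝ)⁻¹ + (21 / 10 : ℝ)⁻¹ + (21 / 10 : ℝ)⁻¹) ?_ ?_ (by positivity)).le
  · rw [ENNReal.ofReal_add (by positivity) (by positivity),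
      ENNReal.ofReal_add (by positivity) (by positivity), coulombCost]
    exact add_le_add (add_le_add (inv_edist_ge (by norm_num) (far hi hk))
      (inv_edist_ge (by norm_num) (far hi hl))) (inv_edist_ge (by norm_num) (far hk hl))
  · have := (D.pot_piece_bound hi).2
    have := (D.pot_piece_bound hk).2
    have := (D.pot_piece_bound hl).2
    norm_num
    linarith

end Vale.Agent.P121
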