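import Vale.Agent.P121.Main

/-!
The marginal `μ`, the optimal coupling, and the absence of an optimal Monge plan.
-/

open scoped RealInnerProductSpace Topology ENNReal NNReal
open MeasureTheory Filter Set Metric

noncomputable section

namespace Vale.Agent.P121

variable (D : Data)

/-- Normalised Lebesgue measure on the central cluster. -/
def Data.nu : Measure E3 := (volume D.A)⁻¹ • volume.restrict D.A

theorem Data.vol_A_pos : volume D.A ≠ 0 :=
  ne_of_gt (measure_closedBall_pos volume _ D.r_pos)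

theorem Data.vol_A_ne_top : volume D.A ≠ ∞ := D.A_compact.measure_lt_top.ne

theorem Data.A_meas : MeasurableSet D.A := D.A_compact.isClosed.measurableSet

instance : IsProbabilityMeasure D.nu := by
  constructor
  simp [Data.nu, ENNReal.inv_mul_cancel D.vol_A_pos D.vol_A_ne_top]

theorem Data.nu_ae_A : ∀ᵐ a ∂D.nu, a ∈ D.A :=
  Measure.ae_smul_measure (ae_restrict_mem D.A_meas) _

theorem Data.nu_ac : D.nu ≪ volume :=
  (Measure.absolutelyContinuous_of_le Measure.restrict_le_self).smul_left _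

theorem Data.image_ac (i : Fin 2 × Fin 2) : D.nu.map (D.map4 i) ≪ volume := by
  refine Measure.AbsolutelyContinuous.mk fun s hs hs0 => ?_
  rw [Measure.map_apply (D.map4_meas i) hs]
  refine measure_mono_null (t := (D.A ∩ D.map4 i ⁻¹' s) ∪ D.Aᶜ) ?_ ?_
  · intro x hx
    by_cases hA : x ∈ D.A
    · exact Or.inl ⟨hA, hx⟩
    · exact Or.inr hA
  refine measure_union_null ?_ (ae_iff.mp D.nu_ae_A)
  obtain ⟨m, hm, hmm⟩ := D.map4_expand i
  have hinj := D.map4_injOn i
  have hlip : LipschitzOnWith (Real.toNNReal m⁻¹) (Function.invFunOn (D.map4 i) D.A)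
      (D.piece i) := by
    apply LipschitzOnWith.of_dist_le'
    rintro _ ⟨x, hx, rfl⟩ _ ⟨y, hy, rfl⟩
    rw [hinj.leftInvOn_invFunOn hx, hinj.leftInvOn_invFunOn hy, dist_eq_norm, dist_eq_norm,
      inv_mul_eq_div, le_div_iff₀ hm, mul_comm]
    exact hmm x hx y hy
  have hsub : D.A ∩ D.map4 i ⁻¹' s ⊆ Function.invFunOn (D.map4 i) D.A '' (D.piece i ∩ s) := by
    rintro a ⟨ha, has⟩
    exact ⟨D.map4 i a, ⟨⟨a, ha, rfl⟩, has⟩, hinj.leftInvOn_invFunOn ha⟩
  apply D.nu_ac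
  have hfin : Module.finrank ℝ E3 = 3 := finrank_euclideanSpace_fin
  have hH : (μH[(Module.finrank ℝ E3 : ℝ)] : Measure E3).IsAddHaarMeasure :=
    isAddHaarMeasure_hausdorffMeasure
  have h1 : μH[(Module.finrank ℝ E3 : ℝ)] (D.piece i ∩ s) = 0 :=
    Measure.absolutelyContinuous_isAddHaarMeasure _ volume
      (measure_mono_null inter_subset_right hs0)
  have h2 := (hlip.mono inter_subset_left).hausdorffMeasure_image_le
    (Nat.cast_nonneg (Module.finrank ℝ E3) : (0 : ℝ) ≤ _) (s := D.piece i ∩ s)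
  rw [h1, mul_zero, nonpos_iff_eq_zero] at h2
  refine measure_mono_null hsub ?_
  exact Measure.absolutelyContinuous_isAddHaarMeasure volume
    (μH[(Module.finrank ℝ E3 : ℝ)]) h2

/-- The marginal. -/
def Data.mu : Measure E3 :=
  (3 : ℝ≥0∞)⁻¹ • (D.nu + (2 : ℝ≥0∞)⁻¹ • ∑ i, D.nu.map (D.map4 i))

instance : IsProbabilityMeasure D.mu := by
  constructor
  have h : ∀ i, D.nu.map (D.map4 i) univ = 1 := fun i => by
    rw [Measure.map_apply (D.map4_meas i) MeasurableSet.univ, preimage_univ, measure_univ]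
  simp [Data.mu, h]
  rw [show (2 : ℝ≥0∞)⁻¹ * 4 = 2 by
    rw [show (4 : ℝ≥0∞) = 2 * 2 by norm_num, ← mul_assoc,
      ENNReal.inv_mul_cancel two_ne_zero ENNReal.ofNat_ne_top, one_mul]]
  calc (3 : ℝ≥0∞)⁻¹ + (3 : ℝ≥0∞)⁻¹ * 2 = (3 : ℝ≥0∞)⁻¹ * (1 + 2) := by ring
    _ = 1 := by
      rw [show (1 : ℝ≥0∞) + 2 = 3 by norm_num]
      exact ENNReal.inv_mul_cancel (by norm_num) ENNReal.ofNat_ne_top

theorem Data.mu_ac : D.mu ≪ volume := by
  refine Measure.AbsolutelyContinuous.mk fun s hs hs0 => ?_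
  simp [Data.mu, D.nu_ac hs0, fun i => D.image_ac i hs0]

theorem Data.mu_supp : D.mu D.suppᶜ = 0 := by
  have hm : MeasurableSet D.suppᶜ := D.supp_compact.isClosed.measurableSet.compl
  have h0 : D.nu D.suppᶜ = 0 :=
    measure_mono_null (compl_subset_compl.mpr subset_union_left) (ae_iff.mp D.nu_ae_A)
  have h1 : ∀ i, D.nu.map (D.map4 i) D.suppᶜ = 0 := fun i => by
    rw [Measure.map_apply (D.map4_meas i) hm]
    refine measure_mono_null ?_ (ae_iff.mp D.nu_ae_A)
    intro a ha hA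
    exact ha (Or.inr (mem_iUnion.mpr ⟨i, a, hA, rfl⟩))
  simp [Data.mu, h0, h1]

/-- The three cyclic rotations of the branch `j`. -/
def Data.t1 (j : Fin 2) (a : E3) : E3 × E3 × E3 := (a, D.φ j a, D.ψ j a)
def Data.t2 (j : Fin 2) (a : E3) : E3 × E3 × E3 := (D.φ j a, D.ψ j a, a)
def Data.t3 (j : Fin 2) (a : E3) : E3 × E3 × E3 := (D.ψ j a, a, D.φ j a)

theorem Data.t1_meas (j : Fin 2) : Measurable (D.t1 j) :=
  measurable_id.prodMk ((D.φ_meas j).prodMk (D.ψ_meas j))

theorem Data.t2_meas (j : Fin 2) : Measurable (D.t2 j) :=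
  (D.φ_meas j).prodMk ((D.ψ_meas j).prodMk measurable_id)

theorem Data.t3_meas (j : Fin 2) : Measurable (D.t3 j) :=
  (D.ψ_meas j).prodMk (measurable_id.prodMk (D.φ_meas j))

/-- The optimal coupling. -/
def Data.plan : Measure (E3 × E3 × E3) :=
  (3 : ℝ≥0∞)⁻¹ • (2 : ℝ≥0∞)⁻¹ •
    ∑ j, (D.nu.map (D.t1 j) + D.nu.map (D.t2 j) + D.nu.map (D.t3 j))

theorem Data.half_sum :
    (2 : ℝ≥0∞)⁻¹ • ∑ j, (D.nu + D.nu.map (D.φ j) + D.nu.map (D.ψ j)) =
      D.nu + (2 : ℝ≥0∞)⁻¹ • ∑ i, D.nu.map (D.map4 i) := by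
  rw [Fintype.sum_prod_type]
  simp only [Fin.sum_univ_two, Data.map4, Fin.isValue, ↓reduceIte, one_ne_zero]
  have h : (2 : ℝ≥0∞)⁻¹ • D.nu + (2 : ℝ≥0∞)⁻¹ • D.nu = D.nu := by
    rw [← add_smul, ENNReal.inv_two_add_inv_two, one_smul]
  simp only [smul_add]
  conv_rhs => arg 1; rw [← h]
  abel

theorem Data.plan_coupling : IsCoupling D.mu D.plan := by
  have gen : ∀ f : E3 × E3 × E3 → E3, Measurable f → D.plan.map f =
      (3 : ℝ≥0∞)⁻¹ • (2 : ℝ≥0∞)⁻¹ • ∑ j,
        (D.nu.map (f ∘ D.t1 j) + D.nu.map (f ∘ D.t2 j) + D.nu.map (f ∘ D.t3 j)) := by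
    intro f hf
    simp only [Data.plan, Fin.sum_univ_two, Measure.map_smul, Measure.map_add _ _ hf,
      Measure.map_map hf (D.t1_meas _), Measure.map_map hf (D.t2_meas _),
      Measure.map_map hf (D.t3_meas _)]
  refine ⟨?_, ?_, ?_⟩
  · rw [gen _ measurable_fst, Data.mu, ← D.half_sum]
    simp only [Data.t1, Data.t2, Data.t3, Function.comp_def, Measure.map_id']
  · rw [gen (fun t => t.2.1) (measurable_fst.comp measurable_snd), Data.mu, ← D.half_sum]
    simp only [Data.t1, Data.t2, Data.t3, Function.comp_def, Measure.map_id']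
    congr 2
    exact Finset.sum_congr rfl fun j _ => by abel
  · rw [gen (fun t => t.2.2) (measurable_snd.comp measurable_snd), Data.mu, ← D.half_sum]
    simp only [Data.t1, Data.t2, Data.t3, Function.comp_def, Measure.map_id']
    congr 2
    exact Finset.sum_congr rfl fun j _ => by abel

theorem measurable_cost : Measurable (fun t : E3 × E3 × E3 => coulombCost t.1 t.2.1 t.2.2) := by
  unfold coulombCost
  fun_prop

/-- Dual sum. -/
def Data.dual (t : E3 × E3 × E3) : ℝ≥0∞ := D.U t.1 + D.U t.2.1 + D.U t.2.2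

/-- Shifted cost. -/
def shiftedCost (t : E3 × E3 × E3) : ℝ≥0∞ := coulombCost t.1 t.2.1 t.2.2 + ENNReal.ofReal 30

theorem Data.dual_meas : Measurable D.dual := by
  have := D.U_meas
  unfold Data.dual
  fun_prop

theorem measurable_shifted : Measurable shiftedCost := measurable_cost.add_const _

theorem coupling_prob {μ : Measure E3} [IsProbabilityMeasure μ] {π : Measure (E3 × E3 × E3)}
    (h : IsCoupling μ π) : π univ = 1 := by
  have := congrArg (fun m => m univ) h.1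
  simpa [Measure.map_apply measurable_fst MeasurableSet.univ] using this

theorem Data.coupling_supp {π : Measure (E3 × E3 × E3)} (h : IsCoupling D.mu π) :
    ∀ᵐ t ∂π, t.1 ∈ D.supp ∧ t.2.1 ∈ D.supp ∧ t.2.2 ∈ D.supp := by
  have hA : ∀ᵐ x ∂D.mu, x ∈ D.supp := ae_iff.mpr D.mu_supp
  have get : ∀ f : E3 × E3 × E3 → E3, Measurable f → π.map f = D.mu →
      ∀ᵐ t ∂π, f t ∈ D.supp := fun f hf hm => ae_of_ae_map hf.aemeasurable (hm ▸ hA)
  filter_upwards [get _ measurable_fst h.1,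
    get _ (measurable_fst.comp measurable_snd) h.2.1,
    get _ (measurable_snd.comp measurable_snd) h.2.2] with t h1 h2 h3
  exact ⟨h1, h2, h3⟩

theorem Data.dual_le {π : Measure (E3 × E3 × E3)} (h : IsCoupling D.mu π) :
    ∀ᵐ t ∂π, D.dual t ≤ shiftedCost t :=
  (D.coupling_supp h).mono fun _ ht => D.key_all ht.1 ht.2.1 ht.2.2

theorem Data.lintegral_dual {π : Measure (E3 × E3 × E3)} (h : IsCoupling D.mu π) :
    ∫⁻ t, D.dual t ∂π = ∫⁻ x, D.U x ∂D.mu + ∫⁻ x, D.U x ∂D.mu + ∫⁻ x, D.U x ∂D.mu := by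
  have hU := D.U_meas
  have get : ∀ f : E3 × E3 × E3 → E3, Measurable f → π.map f = D.mu →
      ∫⁻ t, D.U (f t) ∂π = ∫⁻ x, D.U x ∂D.mu := fun f hf hm => by
    rw [← lintegral_map hU hf, hm]
  unfold Data.dual
  rw [lintegral_add_left (by fun_prop), lintegral_add_left (by fun_prop),
    get _ measurable_fst h.1, get (fun t => t.2.1) (measurable_fst.comp measurable_snd) h.2.1,
    get (fun t => t.2.2) (measurable_snd.comp measurable_snd) h.2.2]

theorem lintegral_shifted {μ : Measure E3} [IsProbabilityMeasure μ]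
    {π : Measure (E3 × E3 × E3)} (h : IsCoupling μ π) :
    ∫⁻ t, shiftedCost t ∂π =
      (∫⁻ t, coulombCost t.1 t.2.1 t.2.2 ∂π) + ENNReal.ofReal 30 := by
  unfold shiftedCost
  rw [lintegral_add_right _ measurable_const, lintegral_const, coupling_prob h, mul_one]

theorem Data.plan_tight :
    ∫⁻ t, shiftedCost t ∂D.plan = ∫⁻ t, D.dual t ∂D.plan := by
  refine lintegral_congr_ae ?_
  have hm : MeasurableSet {t : E3 × E3 × E3 | shiftedCost t = D.dual t} :=
    measurableSet_eq_fun measurable_shifted D.dual_meas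
  have base : ∀ j, ∀ a ∈ D.A, D.dual (D.t1 j a) = shiftedCost (D.t1 j a) :=
    fun j a ha => (D.contact_eq (j := j) ha ha ha).2.2 rfl rfl
  have hc2 : ∀ j a, shiftedCost (D.t2 j a) = shiftedCost (D.t1 j a) := fun j a => by
    simp only [shiftedCost, Data.t1, Data.t2, coulombCost]
    rw [edist_comm (D.φ j a) a, edist_comm (D.ψ j a) a]; abel
  have hc3 : ∀ j a, shiftedCost (D.t3 j a) = shiftedCost (D.t1 j a) := fun j a => by
    simp only [shiftedCost, Data.t1, Data.t3, coulombCost]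
    rw [edist_comm (D.ψ j a) a, edist_comm (D.ψ j a) (D.φ j a)]; abel
  have hd2 : ∀ j a, D.dual (D.t2 j a) = D.dual (D.t1 j a) := fun j a => by
    simp only [Data.dual, Data.t1, Data.t2]; abel
  have hd3 : ∀ j a, D.dual (D.t3 j a) = D.dual (D.t1 j a) := fun j a => by
    simp only [Data.dual, Data.t1, Data.t3]; abel
  have get : ∀ (T : E3 → E3 × E3 × E3), Measurable T →
      (∀ a ∈ D.A, shiftedCost (T a) = D.dual (T a)) →
      D.nu.map T {t | shiftedCost t = D.dual t}ᶜ = 0 := by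
    intro T hT hTa
    rw [Measure.map_apply hT hm.compl]
    refine measure_mono_null ?_ (ae_iff.mp D.nu_ae_A)
    intro a ha hA
    exact ha (hTa a hA)
  have g1 := fun j => get _ (D.t1_meas j) fun a ha => (base j a ha).symm
  have g2 := fun j => get _ (D.t2_meas j) fun a ha => by rw [hc2, hd2, base j a ha]
  have g3 := fun j => get _ (D.t3_meas j) fun a ha => by rw [hc3, hd3, base j a ha]
  refine ae_iff.mpr ?_
  change D.plan {t | shiftedCost t = D.dual t}ᶜ = 0
  simp [Data.plan, g1, g2, g3]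

theorem Data.lintegral_U_ne_top : ∫⁻ x, D.U x ∂D.mu ≠ ∞ := by
  have hle : ∀ᵐ x ∂D.mu, D.U x ≤ ENNReal.ofReal 13 := by
    filter_upwards [show ∀ᵐ x ∂D.mu, x ∈ D.supp from ae_iff.mpr D.mu_supp] with x hx
    exact ENNReal.ofReal_le_ofReal (by linarith [(D.pot_supp_bound hx).2])
  refine ne_top_of_le_ne_top ?_ (lintegral_mono_ae hle)
  simp [ENNReal.ofReal_ne_top]

theorem Data.plan_finite : ∫⁻ t, coulombCost t.1 t.2.1 t.2.2 ∂D.plan ≠ ∞ := by
  have h := D.plan_tight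
  rw [lintegral_shifted D.plan_coupling, D.lintegral_dual D.plan_coupling] at h
  refine ne_top_of_le_ne_top ?_ (le_self_add.trans_eq h)
  simp [D.lintegral_U_ne_top]

theorem Data.plan_optimal {π : Measure (E3 × E3 × E3)} (h : IsCoupling D.mu π) :
    ∫⁻ t, coulombCost t.1 t.2.1 t.2.2 ∂D.plan ≤ ∫⁻ t, coulombCost t.1 t.2.1 t.2.2 ∂π := by
  refine ENNReal.le_of_add_le_add_right (a := ENNReal.ofReal 30) ENNReal.ofReal_ne_top ?_
  rw [← lintegral_shifted D.plan_coupling, ← lintegral_shifted h, D.plan_tight,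
    D.lintegral_dual D.plan_coupling, ← D.lintegral_dual h]
  exact lintegral_mono_ae (D.dual_le h)

theorem Data.mu_subset_A {S : Set E3} (hS : MeasurableSet S) (hSA : S ⊆ D.A) :
    D.mu S = (3 : ℝ≥0∞)⁻¹ * D.nu S := by
  have h : ∀ i, D.nu.map (D.map4 i) S = 0 := fun i => by
    rw [Measure.map_apply (D.map4_meas i) hS]
    refine measure_mono_null ?_ (ae_iff.mp D.nu_ae_A)
    intro a ha hA
    exact D.not_A_of_piece ⟨a, hA, rfl⟩ (hSA ha)
  simp [Data.mu, h]

theorem Data.mu_image {S : Set E3} (hS : MeasurableSet S) (hSA : S ⊆ D.A) (i : Fin 2 × Fin 2) :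
    D.mu (D.map4 i '' S) = (3 : ℝ≥0∞)⁻¹ * ((2 : ℝ≥0∞)⁻¹ * D.nu S) := by
  have hm : MeasurableSet (D.map4 i '' S) :=
    hS.image_of_continuousOn_injOn ((D.map4_cont i).mono hSA) ((D.map4_injOn i).mono hSA)
  have h0 : D.nu (D.map4 i '' S) = 0 := by
    refine measure_mono_null ?_ (ae_iff.mp D.nu_ae_A)
    rintro _ ⟨a, ha, rfl⟩
    exact D.not_A_of_piece ⟨a, hSA ha, rfl⟩
  have hk : ∀ k, k ≠ i → D.nu.map (D.map4 k) (D.map4 i '' S) = 0 := fun k hk => by
    rw [Measure.map_apply (D.map4_meas k) hm]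
    refine measure_mono_null ?_ (ae_iff.mp D.nu_ae_A)
    rintro a ⟨b, hb, hab⟩ hA
    exact hk (D.piece_unique ⟨a, hA, rfl⟩ (hab ▸ ⟨b, hSA hb, rfl⟩))
  have hi : D.nu.map (D.map4 i) (D.map4 i '' S) = D.nu S := by
    rw [Measure.map_apply (D.map4_meas i) hm]
    refine measure_congr ?_
    filter_upwards [D.nu_ae_A] with a ha
    refine propext ⟨?_, fun h => ⟨a, h, rfl⟩⟩
    rintro ⟨b, hb, hab⟩
    rwa [← D.map4_injOn i (hSA hb) ha hab]
  simp only [Data.mu, Measure.smul_apply, Measure.coe_add, Pi.add_apply,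
    Measure.coe_finset_sum, Finset.sum_apply, smul_eq_mul, h0, zero_add]
  rw [Finset.sum_eq_single i (fun k _ h => hk k h) (by simp), hi]

theorem Data.monge_strict {T2 T3 : E3 → E3} (h2 : Measurable T2) (h3 : Measurable T3)
    (hm2 : D.mu.map T2 = D.mu) (hm3 : D.mu.map T3 = D.mu) :
    ∫⁻ t, coulombCost t.1 t.2.1 t.2.2 ∂D.plan <
      ∫⁻ x, coulombCost x (T2 x) (T3 x) ∂D.mu := by
  by_contra hle
  rw [not_lt] at hle
  let T : E3 → E3 × E3 × E3 := fun x => (x, T2 x, T3 x)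
  have hT : Measurable T := measurable_id.prodMk (h2.prodMk h3)
  have hπ : IsCoupling D.mu (D.mu.map T) := by
    refine ⟨?_, ?_, ?_⟩
    · rw [Measure.map_map measurable_fst hT]; exact Measure.map_id
    · rw [Measure.map_map (g := fun t : E3 × E3 × E3 => t.2.1)
        (measurable_fst.comp measurable_snd) hT]; exact hm2
    · rw [Measure.map_map (g := fun t : E3 × E3 × E3 => t.2.2)
        (measurable_snd.comp measurable_snd) hT]; exact hm3
  have hcost : ∫⁻ t, coulombCost t.1 t.2.1 t.2.2 ∂(D.mu.map T) =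
      ∫⁻ x, coulombCost x (T2 x) (T3 x) ∂D.mu := lintegral_map measurable_cost hT
  have hint : ∫⁻ t, shiftedCost t ∂(D.mu.map T) ≤ ∫⁻ t, D.dual t ∂(D.mu.map T) := by
    rw [lintegral_shifted hπ, D.lintegral_dual hπ, ← D.lintegral_dual D.plan_coupling,
      ← D.plan_tight, lintegral_shifted D.plan_coupling, hcost]
    exact add_le_add_left hle _
  have hfin : ∫⁻ t, D.dual t ∂(D.mu.map T) ≠ ∞ := by
    rw [D.lintegral_dual hπ]
    simp [D.lintegral_U_ne_top]
  have heq := ae_eq_of_ae_le_of_lintegral_le (D.dual_le hπ) hfin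
    measurable_shifted.aemeasurable hint
  have hae : ∀ᵐ x ∂D.mu, D.dual (T x) = shiftedCost (T x) := ae_of_ae_map hT.aemeasurable heq
  have hsupp : ∀ᵐ x ∂D.mu, x ∈ D.supp ∧ T2 x ∈ D.supp ∧ T3 x ∈ D.supp :=
    ae_of_ae_map hT.aemeasurable (D.coupling_supp hπ)
  let S : Fin 2 × Fin 2 → Set E3 := fun i => {x | x ∈ D.A ∧ T2 x = D.map4 i x}
  have hSm : ∀ i, MeasurableSet (S i) := fun i =>
    D.A_meas.inter (measurableSet_eq_fun h2 (D.map4_meas i))
  have hSA : ∀ i, S i ⊆ D.A := fun i x hx => hx.1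
  have hS0 : ∀ i, D.mu (S i) = 0 := by
    intro i
    have hm : MeasurableSet (D.map4 i '' S i) :=
      (hSm i).image_of_continuousOn_injOn ((D.map4_cont i).mono (hSA i))
        ((D.map4_injOn i).mono (hSA i))
    have h : D.mu (S i) ≤ D.mu (D.map4 i '' S i) := by
      calc D.mu (S i) ≤ D.mu (T2 ⁻¹' (D.map4 i '' S i)) :=
            measure_mono fun x hx => ⟨x, hx, hx.2.symm⟩
        _ = D.mu (D.map4 i '' S i) := by rw [← Measure.map_apply h2 hm, hm2]
    rw [D.mu_subset_A (hSm i) (hSA i), D.mu_image (hSm i) (hSA i) i] at h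
    rw [D.mu_subset_A (hSm i) (hSA i)]
    have h' : D.nu (S i) ≤ (2 : ℝ≥0∞)⁻¹ * D.nu (S i) :=
      (ENNReal.mul_le_mul_iff_right (by simp) (by simp)).mp h
    have hz : D.nu (S i) = 0 := by
      by_contra hne
      have htop : D.nu (S i) ≠ ∞ := measure_ne_top _ _
      have : D.nu (S i) / 2 < D.nu (S i) := ENNReal.half_lt_self hne htop
      rw [ENNReal.div_eq_inv_mul] at this
      exact absurd h' (not_le.mpr this)
    rw [hz, mul_zero]
  have hA0 : D.mu D.A = 0 := by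
    have hcover : ∀ᵐ x ∂D.mu, x ∈ D.A → x ∈ ⋃ i, S i := by
      filter_upwards [hae, hsupp] with x hx hs hA
      obtain ⟨i, hi⟩ := (D.key_A hA hs.2.1 hs.2.2).2 hx
      exact mem_iUnion.mpr ⟨i, hA, hi⟩
    have hle : D.mu D.A ≤ D.mu (⋃ i, S i) := measure_mono_ae hcover
    exact nonpos_iff_eq_zero.mp (hle.trans_eq (measure_iUnion_null hS0))
  rw [D.mu_subset_A D.A_meas subset_rfl] at hA0
  have hone : D.nu D.A = 1 := by
    rw [← (prob_compl_eq_zero_iff D.A_meas)]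
    exact ae_iff.mp D.nu_ae_A
  simp [hone] at hA0

theorem exists_counterexample :
    ∃ μ : Measure E3, IsProbabilityMeasure μ ∧ μ ≪ volume ∧ (∃ K, IsCompact K ∧ μ Kᶜ = 0) ∧
      ∃ π₀, IsCoupling μ π₀ ∧ ∫⁻ t, coulombCost t.1 t.2.1 t.2.2 ∂π₀ < ∞ ∧
        (∀ π, IsCoupling μ π →
          ∫⁻ t, coulombCost t.1 t.2.1 t.2.2 ∂π₀ ≤ ∫⁻ t, coulombCost t.1 t.2.1 t.2.2 ∂π) ∧
        ∀ T₂ T₃ : E3 → E3, Measurable T₂ → Measurable T₃ → μ.map T₂ = μ → μ.map T₃ = μ →
          ∫⁻ t, coulombCost t.1 t.2.1 t.2.2 ∂π₀ < ∫⁻ x, coulombCost x (T₂ x) (T₃ x) ∂μ := by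
  obtain ⟨D⟩ := exists_data
  exact ⟨D.mu, inferInstance, D.mu_ac, ⟨D.supp, D.supp_compact, D.mu_supp⟩, D.plan,
    D.plan_coupling, D.plan_finite.lt_top, fun π hπ => D.plan_optimal hπ,
    fun T₂ T₃ a b c d => D.monge_strict a b c d⟩

end Vale.Agent.P121
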